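import Mathlib
import Vale.Agent.P369.Fock.Att
import Vale.Agent.P369.Classical.Ineq

/-!
# P369: the pointwise inequality on states commuting with the total photon number
-/

namespace Vale.Agent.P369.Block

open Matrix Vale.Agent.P369.Classical
open scoped ComplexOrder
open Vale.Agent.P369.Fock

variable {n K : ℕ}

/-- Commuting with the total photon number. -/
def IsBlock (M : Matrix (box n K) (box n K) ℂ) : Prop :=
  ∀ a b : box n K, photons (a : Idx n) ≠ photons (b : Idx n) → M a b = 0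

/-- The commutator of `a` with `(X M)ᴴ`. -/
def comU {ι : Type*} [Fintype ι] (M X a : Matrix ι ι ℂ) : Matrix ι ι ℂ := a * M * Xᴴ - M * Xᴴ * a

/-- The commutator of `a` with `X M`. -/
def comV {ι : Type*} [Fintype ι] (M X a : Matrix ι ι ℂ) : Matrix ι ι ℂ := a * X * M - X * M * a

/-- The drift `Q`, multiplied by `s`: here `B = X M`, `s = 1/x`. -/
noncomputable def drift {ι : Type*} [Fintype ι] (s : ℝ) (M : Matrix ι ι ℂ) (a X : Fin n → Matrix ι ι ℂ) : ℝ :=
  (∑ j, ∑ k, (s * nsq M (comU M (X j) (a k))ᴴ + (1 - s) * nsq M (comV M (X j) (a k))ᴴ))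
    + s * ∑ j, (nsq M (X j * M)ᴴ - nsq M (X j * M))

/-- `Q ≥ 0` for faithful number-block states: here `s M X + (1-s) X M = a_j`. -/
def QBlock (n : ℕ) : Prop :=
  ∀ (K : ℕ) (M : Matrix (box n K) (box n K) ℂ), M.PosDef → M.trace = 1 → IsBlock M →
    ∀ s : ℝ, 0 < s → s < 1 → ∀ X : Fin n → Matrix (box n K) (box n K) ℂ,
      (∀ j, sylv s M (X j) = annih n K j) → 0 ≤ drift s M (annih n K) X

end Vale.Agent.P369.Block
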