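import Mathlib
import Vale.Agent.P369.Block.Defs

/-!
# P369: the derivative identity of the attenuator flow on the truncated Fock space
-/

namespace Vale.Agent.P369.Block

open Matrix Vale.Agent.P369.Classical

variable {ι : Type*} [Fintype ι]

/-- The generator, one mode. -/
noncomputable def bgen (M Z : Matrix ι ι ℂ) : Matrix ι ι ℂ :=
  Z * M * Zᴴ - ((1/2 : ℝ) : ℂ) • (Zᴴ * Z * M + M * (Zᴴ * Z))

theorem pair_identity {M Y Z : Matrix ι ι ℂ} (hM : Mᴴ = M) {s δ : ℝ}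
    (c1 : Z * sylv s M Y = sylv s M Y * Z)
    (c2 : Zᴴ * Z * sylv s M Y - sylv s M Y * (Zᴴ * Z) = -((δ : ℂ) • sylv s M Y)) :
    s * (-s * (trace ((bgen M Z * Y)ᴴ * (M * Y * M - Y * M * M))).re
        - (1 - s) * (trace ((Y * bgen M Z)ᴴ * (M * Y * M - Y * M * M))).re
        + (trace (Yᴴ * (bgen M Z * sylv s M Y * M + M * sylv s M Y * bgen M Z
            - sylv s M Y * bgen M Z * M - sylv s M Y * M * bgen M Z))).re
        + δ * (trace (Yᴴ * (M * sylv s M Y * M - sylv s M Y * M * M))).re)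
      = s * nsq M (comU M Y Z)ᴴ + (1 - s) * nsq M (comV M Y Z)ᴴ := by
  have n1 : (trace (M * M * Yᴴ * (Zᴴ * Z * sylv s M Y - sylv s M Y * (Zᴴ * Z)))).re
      = -δ * (trace (M * M * Yᴴ * sylv s M Y)).re := by
    simp [c2, Matrix.trace_smul]
  have n2 : (trace (M * Yᴴ * M * (Zᴴ * Z * sylv s M Y - sylv s M Y * (Zᴴ * Z)))).re
      = -δ * (trace (M * Yᴴ * M * sylv s M Y)).re := by
    simp [c2, Matrix.trace_smul]
  have z1 : (trace (M * M * Yᴴ * Zᴴ * (Z * sylv s M Y - sylv s M Y * Z))).re = 0 := by simp [c1]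
  have z2 : (trace (M * Yᴴ * M * Zᴴ * (Z * sylv s M Y - sylv s M Y * Z))).re = 0 := by simp [c1]
  have z3 : (trace (M * Zᴴ * M * Yᴴ * (Z * sylv s M Y - sylv s M Y * Z))).re = 0 := by simp [c1]
  have z4 : (trace (M * Zᴴ * Yᴴ * M * (Z * sylv s M Y - sylv s M Y * Z))).re = 0 := by simp [c1]
  have w2 : (Matrix.trace (M * (M * (Yᴴ * (Y * (M)))))).re = (Matrix.trace (M * (M * (M * (Yᴴ * (Y)))))).re := by
    have e := congrArg Complex.re (Matrix.trace_mul_comm (M * M * Yᴴ * Y) (M))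
    simp only [mul_assoc] at e
    exact e
  have w6 : (Matrix.trace (M * (M * (Yᴴ * (Zᴴ * (Z * (M * (Y)))))))).re = (Matrix.trace (M * (M * (Yᴴ * (M * (Zᴴ * (Z * (Y)))))))).re := by
    rw [← re_trace_star (M * (M * (Yᴴ * (Zᴴ * (Z * (M * (Y)))))))]
    simp only [Matrix.conjTranspose_mul, Matrix.conjTranspose_conjTranspose, hM, mul_assoc]
    have e := congrArg Complex.re (Matrix.trace_mul_comm (Yᴴ * M * Zᴴ * Z * Y) (M * M))
    simp only [mul_assoc] at e
    exact e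
  have w7 : (Matrix.trace (M * (M * (Yᴴ * (Zᴴ * (Z * (Y * (M)))))))).re = (Matrix.trace (M * (M * (M * (Yᴴ * (Zᴴ * (Z * (Y)))))))).re := by
    have e := congrArg Complex.re (Matrix.trace_mul_comm (M * M * Yᴴ * Zᴴ * Z * Y) (M))
    simp only [mul_assoc] at e
    exact e
  have w8 : (Matrix.trace (M * (Yᴴ * (M * (M * (Y)))))).re = (Matrix.trace (M * (M * (Y * (M * (Yᴴ)))))).re := by
    have e := congrArg Complex.re (Matrix.trace_mul_comm (M * Yᴴ) (M * M * Y))
    simp only [mul_assoc] at e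
    exact e
  have w9 : (Matrix.trace (M * (Yᴴ * (M * (M * (Y * (Zᴴ * (Z)))))))).re = (Matrix.trace (M * (M * (Y * (M * (Zᴴ * (Z * (Yᴴ)))))))).re := by
    rw [← re_trace_star (M * (Yᴴ * (M * (M * (Y * (Zᴴ * (Z)))))))]
    simp only [Matrix.conjTranspose_mul, Matrix.conjTranspose_conjTranspose, hM, mul_assoc]
    have e := congrArg Complex.re (Matrix.trace_mul_comm (Zᴴ * Z * Yᴴ) (M * M * Y * M))
    simp only [mul_assoc] at e
    exact e
  have w10 : (Matrix.trace (M * (Yᴴ * (M * (Y * (M)))))).re = (Matrix.trace (M * (M * (Yᴴ * (M * (Y)))))).re := by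
    have e := congrArg Complex.re (Matrix.trace_mul_comm (M * Yᴴ * M * Y) (M))
    simp only [mul_assoc] at e
    exact e
  have w11 : (Matrix.trace (M * (Yᴴ * (M * (Y * (M * (Zᴴ * (Z)))))))).re = (Matrix.trace (M * (Y * (M * (Zᴴ * (Z * (M * (Yᴴ)))))))).re := by
    have e := congrArg Complex.re (Matrix.trace_mul_comm (M * Yᴴ) (M * Y * M * Zᴴ * Z))
    simp only [mul_assoc] at e
    exact e
  have w12 : (Matrix.trace (M * (Yᴴ * (M * (Zᴴ * (M * (Y * (Z)))))))).re = (Matrix.trace (M * (Y * (M * (Zᴴ * (Yᴴ * (M * (Z)))))))).re := by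
    rw [← re_trace_star (M * (Yᴴ * (M * (Zᴴ * (M * (Y * (Z)))))))]
    simp only [Matrix.conjTranspose_mul, Matrix.conjTranspose_conjTranspose, hM, mul_assoc]
    have e := congrArg Complex.re (Matrix.trace_mul_comm (Zᴴ * Yᴴ * M * Z) (M * Y * M))
    simp only [mul_assoc] at e
    exact e
  have w13 : (Matrix.trace (M * (Yᴴ * (M * (Zᴴ * (Y * (M * (Z)))))))).re = (Matrix.trace (M * (Y * (M * (Zᴴ * (M * (Yᴴ * (Z)))))))).re := by
    rw [← re_trace_star (M * (Yᴴ * (M * (Zᴴ * (Y * (M * (Z)))))))]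
    simp only [Matrix.conjTranspose_mul, Matrix.conjTranspose_conjTranspose, hM, mul_assoc]
    have e := congrArg Complex.re (Matrix.trace_mul_comm (Zᴴ * M * Yᴴ * Z) (M * Y * M))
    simp only [mul_assoc] at e
    exact e
  have w14 : (Matrix.trace (M * (Yᴴ * (M * (Zᴴ * (Z * (M * (Y)))))))).re = (Matrix.trace (M * (Y * (M * (Yᴴ * (M * (Zᴴ * (Z)))))))).re := by
    have e := congrArg Complex.re (Matrix.trace_mul_comm (M * Yᴴ * M * Zᴴ * Z) (M * Y))
    simp only [mul_assoc] at e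
    exact e
  have w15 : (Matrix.trace (M * (Yᴴ * (M * (Zᴴ * (Z * (Y * (M)))))))).re = (Matrix.trace (M * (M * (Yᴴ * (M * (Zᴴ * (Z * (Y)))))))).re := by
    have e := congrArg Complex.re (Matrix.trace_mul_comm (M * Yᴴ * M * Zᴴ * Z * Y) (M))
    simp only [mul_assoc] at e
    exact e
  have w16 : (Matrix.trace (M * (Yᴴ * (Z * (M * (Y * (M * (Zᴴ)))))))).re = (Matrix.trace (M * (Y * (M * (Zᴴ * (M * (Yᴴ * (Z)))))))).re := by
    have e := congrArg Complex.re (Matrix.trace_mul_comm (M * Yᴴ * Z) (M * Y * M * Zᴴ))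
    simp only [mul_assoc] at e
    exact e
  have w17 : (Matrix.trace (M * (Yᴴ * (Z * (M * (Zᴴ * (Y * (M)))))))).re = (Matrix.trace (M * (M * (Yᴴ * (Z * (M * (Zᴴ * (Y)))))))).re := by
    have e := congrArg Complex.re (Matrix.trace_mul_comm (M * Yᴴ * Z * M * Zᴴ * Y) (M))
    simp only [mul_assoc] at e
    exact e
  have w18 : (Matrix.trace (M * (Zᴴ * (M * (Yᴴ * (M * (Y * (Z)))))))).re = (Matrix.trace (M * (Y * (M * (Z * (M * (Zᴴ * (Yᴴ)))))))).re := by
    rw [← re_trace_star (M * (Zᴴ * (M * (Yᴴ * (M * (Y * (Z)))))))]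
    simp only [Matrix.conjTranspose_mul, Matrix.conjTranspose_conjTranspose, hM, mul_assoc]
    have e := congrArg Complex.re (Matrix.trace_mul_comm (Zᴴ * Yᴴ) (M * Y * M * Z * M))
    simp only [mul_assoc] at e
    exact e
  have w19 : (Matrix.trace (M * (Zᴴ * (M * (Yᴴ * (Y * (M * (Z)))))))).re = (Matrix.trace (M * (Z * (M * (Zᴴ * (M * (Yᴴ * (Y)))))))).re := by
    have e := congrArg Complex.re (Matrix.trace_mul_comm (M * Zᴴ * M * Yᴴ * Y) (M * Z))
    simp only [mul_assoc] at e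
    exact e
  have w20 : (Matrix.trace (M * (Zᴴ * (M * (Yᴴ * (Z * (M * (Y)))))))).re = (Matrix.trace (M * (Y * (M * (Zᴴ * (M * (Yᴴ * (Z)))))))).re := by
    have e := congrArg Complex.re (Matrix.trace_mul_comm (M * Zᴴ * M * Yᴴ * Z) (M * Y))
    simp only [mul_assoc] at e
    exact e
  have w21 : (Matrix.trace (M * (Zᴴ * (M * (Yᴴ * (Z * (Y * (M)))))))).re = (Matrix.trace (M * (M * (Yᴴ * (Zᴴ * (Y * (M * (Z)))))))).re := by
    rw [← re_trace_star (M * (Zᴴ * (M * (Yᴴ * (Z * (Y * (M)))))))]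
    simp only [Matrix.conjTranspose_mul, Matrix.conjTranspose_conjTranspose, hM, mul_assoc]
    have e := congrArg Complex.re (Matrix.trace_mul_comm (M * Yᴴ * Zᴴ * Y * M * Z) (M))
    simp only [mul_assoc] at e
    exact e
  have w22 : (Matrix.trace (M * (Zᴴ * (Z * (Yᴴ * (M * (Y * (M)))))))).re = (Matrix.trace (M * (M * (Yᴴ * (M * (Y * (Zᴴ * (Z)))))))).re := by
    rw [← re_trace_star (M * (Zᴴ * (Z * (Yᴴ * (M * (Y * (M)))))))]
    simp only [Matrix.conjTranspose_mul, Matrix.conjTranspose_conjTranspose, hM, mul_assoc]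
    have e := congrArg Complex.re (Matrix.trace_mul_comm (M * Yᴴ * M * Y * Zᴴ * Z) (M))
    simp only [mul_assoc] at e
    exact e
  have w23 : (Matrix.trace (M * (Zᴴ * (Z * (Yᴴ * (Y * (M * (M)))))))).re = (Matrix.trace (M * (M * (M * (Yᴴ * (Y * (Zᴴ * (Z)))))))).re := by
    rw [← re_trace_star (M * (Zᴴ * (Z * (Yᴴ * (Y * (M * (M)))))))]
    simp only [Matrix.conjTranspose_mul, Matrix.conjTranspose_conjTranspose, hM, mul_assoc]
    have e := congrArg Complex.re (Matrix.trace_mul_comm (M * M * Yᴴ * Y * Zᴴ * Z) (M))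
    simp only [mul_assoc] at e
    exact e
  have w24 : (Matrix.trace (M * (Zᴴ * (Yᴴ * (M * (M * (Y * (Z)))))))).re = (Matrix.trace (M * (M * (Y * (Z * (M * (Zᴴ * (Yᴴ)))))))).re := by
    have e := congrArg Complex.re (Matrix.trace_mul_comm (M * Zᴴ * Yᴴ) (M * M * Y * Z))
    simp only [mul_assoc] at e
    exact e
  have w25 : (Matrix.trace (M * (Zᴴ * (Yᴴ * (M * (Y * (M * (Z)))))))).re = (Matrix.trace (M * (Y * (M * (Z * (M * (Zᴴ * (Yᴴ)))))))).re := by
    have e := congrArg Complex.re (Matrix.trace_mul_comm (M * Zᴴ * Yᴴ) (M * Y * M * Z))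
    simp only [mul_assoc] at e
    exact e
  have w26 : (Matrix.trace (M * (Zᴴ * (Yᴴ * (M * (Z * (M * (Y)))))))).re = (Matrix.trace (M * (Y * (M * (Zᴴ * (Yᴴ * (M * (Z)))))))).re := by
    have e := congrArg Complex.re (Matrix.trace_mul_comm (M * Zᴴ * Yᴴ * M * Z) (M * Y))
    simp only [mul_assoc] at e
    exact e
  have w27 : (Matrix.trace (M * (Zᴴ * (Yᴴ * (M * (Z * (Y * (M)))))))).re = (Matrix.trace (M * (M * (Yᴴ * (Zᴴ * (M * (Y * (Z)))))))).re := by
    rw [← re_trace_star (M * (Zᴴ * (Yᴴ * (M * (Z * (Y * (M)))))))]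
    simp only [Matrix.conjTranspose_mul, Matrix.conjTranspose_conjTranspose, hM, mul_assoc]
    have e := congrArg Complex.re (Matrix.trace_mul_comm (M * Yᴴ * Zᴴ * M * Y * Z) (M))
    simp only [mul_assoc] at e
    exact e
  have w28 : (Matrix.trace (Y * (M * (Z * (M * (M * (Yᴴ * (Zᴴ)))))))).re = (Matrix.trace (M * (M * (Yᴴ * (Zᴴ * (Y * (M * (Z)))))))).re := by
    have e := congrArg Complex.re (Matrix.trace_mul_comm (Y * M * Z) (M * M * Yᴴ * Zᴴ))
    simp only [mul_assoc] at e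
    exact e
  have w29 : (Matrix.trace (Y * (M * (Z * (M * (Zᴴ * (M * (Yᴴ)))))))).re = (Matrix.trace (M * (Z * (M * (Zᴴ * (M * (Yᴴ * (Y)))))))).re := by
    have e := congrArg Complex.re (Matrix.trace_mul_comm (Y) (M * Z * M * Zᴴ * M * Yᴴ))
    simp only [mul_assoc] at e
    exact e
  have w30 : (Matrix.trace (Z * (M * (Yᴴ * (M * (Y * (M * (Zᴴ)))))))).re = (Matrix.trace (M * (Y * (M * (Zᴴ * (Z * (M * (Yᴴ)))))))).re := by
    have e := congrArg Complex.re (Matrix.trace_mul_comm (Z * M * Yᴴ) (M * Y * M * Zᴴ))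
    simp only [mul_assoc] at e
    exact e
  have w31 : (Matrix.trace (Z * (M * (Yᴴ * (M * (Zᴴ * (Y * (M)))))))).re = (Matrix.trace (M * (Y * (M * (Zᴴ * (M * (Yᴴ * (Z)))))))).re := by
    rw [← re_trace_star (Z * (M * (Yᴴ * (M * (Zᴴ * (Y * (M)))))))]
    simp only [Matrix.conjTranspose_mul, Matrix.conjTranspose_conjTranspose, hM, mul_assoc]
    have e := congrArg Complex.re (Matrix.trace_mul_comm (M * Yᴴ * Z) (M * Y * M * Zᴴ))
    simp only [mul_assoc] at e
    exact e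
  have w32 : (Matrix.trace (Z * (M * (Zᴴ * (Yᴴ * (M * (Y * (M)))))))).re = (Matrix.trace (M * (Y * (M * (Z * (M * (Zᴴ * (Yᴴ)))))))).re := by
    have e := congrArg Complex.re (Matrix.trace_mul_comm (Z * M * Zᴴ * Yᴴ) (M * Y * M))
    simp only [mul_assoc] at e
    exact e
  have w33 : (Matrix.trace (Z * (M * (Zᴴ * (Yᴴ * (Y * (M * (M)))))))).re = (Matrix.trace (M * (M * (Z * (M * (Zᴴ * (Yᴴ * (Y)))))))).re := by
    have e := congrArg Complex.re (Matrix.trace_mul_comm (Z * M * Zᴴ * Yᴴ * Y) (M * M))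
    simp only [mul_assoc] at e
    exact e
  have w34 : (Matrix.trace (Z * (Y * (M * (M * (M * (Yᴴ * (Zᴴ)))))))).re = (Matrix.trace (M * (M * (M * (Yᴴ * (Zᴴ * (Z * (Y)))))))).re := by
    have e := congrArg Complex.re (Matrix.trace_mul_comm (Z * Y) (M * M * M * Yᴴ * Zᴴ))
    simp only [mul_assoc] at e
    exact e
  have w35 : (Matrix.trace (Z * (Y * (M * (M * (Zᴴ * (M * (Yᴴ)))))))).re = (Matrix.trace (M * (M * (Yᴴ * (Zᴴ * (Y * (M * (Z)))))))).re := by
    rw [← re_trace_star (Z * (Y * (M * (M * (Zᴴ * (M * (Yᴴ)))))))]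
    simp only [Matrix.conjTranspose_mul, Matrix.conjTranspose_conjTranspose, hM, mul_assoc]
    have e := congrArg Complex.re (Matrix.trace_mul_comm (Y * M * Z) (M * M * Yᴴ * Zᴴ))
    simp only [mul_assoc] at e
    exact e
  have w36 : (Matrix.trace (Yᴴ * (M * (M * (Y * (M)))))).re = (Matrix.trace (M * (M * (Y * (M * (Yᴴ)))))).re := by
    have e := congrArg Complex.re (Matrix.trace_mul_comm (Yᴴ) (M * M * Y * M))
    simp only [mul_assoc] at e
    exact e
  have w37 : (Matrix.trace (Yᴴ * (M * (M * (Y * (M * (Zᴴ * (Z)))))))).re = (Matrix.trace (M * (M * (Y * (M * (Zᴴ * (Z * (Yᴴ)))))))).re := by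
    have e := congrArg Complex.re (Matrix.trace_mul_comm (Yᴴ) (M * M * Y * M * Zᴴ * Z))
    simp only [mul_assoc] at e
    exact e
  have w38 : (Matrix.trace (Yᴴ * (M * (M * (Y * (Z * (M * (Zᴴ)))))))).re = (Matrix.trace (M * (M * (Y * (Z * (M * (Zᴴ * (Yᴴ)))))))).re := by
    have e := congrArg Complex.re (Matrix.trace_mul_comm (Yᴴ) (M * M * Y * Z * M * Zᴴ))
    simp only [mul_assoc] at e
    exact e
  have w39 : (Matrix.trace (Yᴴ * (M * (M * (Y * (Zᴴ * (Z * (M)))))))).re = (Matrix.trace (M * (M * (Y * (M * (Zᴴ * (Z * (Yᴴ)))))))).re := by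
    rw [← re_trace_star (Yᴴ * (M * (M * (Y * (Zᴴ * (Z * (M)))))))]
    simp only [Matrix.conjTranspose_mul, Matrix.conjTranspose_conjTranspose, hM, mul_assoc]
    have e := congrArg Complex.re (Matrix.trace_mul_comm (M * Zᴴ * Z * Yᴴ) (M * M * Y))
    simp only [mul_assoc] at e
    exact e
  have w40 : (Matrix.trace (Yᴴ * (M * (Y * (M * (M)))))).re = (Matrix.trace (M * (M * (Yᴴ * (M * (Y)))))).re := by
    have e := congrArg Complex.re (Matrix.trace_mul_comm (Yᴴ * M * Y) (M * M))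
    simp only [mul_assoc] at e
    exact e
  have w41 : (Matrix.trace (Yᴴ * (M * (Y * (M * (M * (Zᴴ * (Z)))))))).re = (Matrix.trace (M * (M * (Yᴴ * (M * (Y * (Zᴴ * (Z)))))))).re := by
    rw [← re_trace_star (Yᴴ * (M * (Y * (M * (M * (Zᴴ * (Z)))))))]
    simp only [Matrix.conjTranspose_mul, Matrix.conjTranspose_conjTranspose, hM, mul_assoc]
    have e := congrArg Complex.re (Matrix.trace_mul_comm (Zᴴ * Z) (M * M * Yᴴ * M * Y))
    simp only [mul_assoc] at e
    exact e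
  have w42 : (Matrix.trace (Yᴴ * (M * (Y * (M * (Z * (M * (Zᴴ)))))))).re = (Matrix.trace (M * (Y * (M * (Z * (M * (Zᴴ * (Yᴴ)))))))).re := by
    have e := congrArg Complex.re (Matrix.trace_mul_comm (Yᴴ) (M * Y * M * Z * M * Zᴴ))
    simp only [mul_assoc] at e
    exact e
  have w43 : (Matrix.trace (Yᴴ * (M * (Y * (M * (Zᴴ * (Z * (M)))))))).re = (Matrix.trace (M * (Y * (M * (Zᴴ * (Z * (M * (Yᴴ)))))))).re := by
    have e := congrArg Complex.re (Matrix.trace_mul_comm (Yᴴ) (M * Y * M * Zᴴ * Z * M))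
    simp only [mul_assoc] at e
    exact e
  have w44 : (Matrix.trace (Yᴴ * (M * (Y * (Z * (M * (Zᴴ * (M)))))))).re = (Matrix.trace (M * (Y * (M * (Z * (M * (Zᴴ * (Yᴴ)))))))).re := by
    rw [← re_trace_star (Yᴴ * (M * (Y * (Z * (M * (Zᴴ * (M)))))))]
    simp only [Matrix.conjTranspose_mul, Matrix.conjTranspose_conjTranspose, hM, mul_assoc]
    have e := congrArg Complex.re (Matrix.trace_mul_comm (M * Z * M * Zᴴ * Yᴴ) (M * Y))
    simp only [mul_assoc] at e
    exact e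
  have w45 : (Matrix.trace (Yᴴ * (M * (Y * (Zᴴ * (Z * (M * (M)))))))).re = (Matrix.trace (M * (M * (Yᴴ * (M * (Y * (Zᴴ * (Z)))))))).re := by
    have e := congrArg Complex.re (Matrix.trace_mul_comm (Yᴴ * M * Y * Zᴴ * Z) (M * M))
    simp only [mul_assoc] at e
    exact e
  have w46 : (Matrix.trace (Yᴴ * (M * (Zᴴ * (Z * (M * (Y * (M)))))))).re = (Matrix.trace (M * (Y * (M * (Yᴴ * (M * (Zᴴ * (Z)))))))).re := by
    have e := congrArg Complex.re (Matrix.trace_mul_comm (Yᴴ * M * Zᴴ * Z) (M * Y * M))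
    simp only [mul_assoc] at e
    exact e
  have w47 : (Matrix.trace (Yᴴ * (M * (Zᴴ * (Z * (Y * (M * (M)))))))).re = (Matrix.trace (M * (M * (Yᴴ * (M * (Zᴴ * (Z * (Y)))))))).re := by
    have e := congrArg Complex.re (Matrix.trace_mul_comm (Yᴴ * M * Zᴴ * Z * Y) (M * M))
    simp only [mul_assoc] at e
    exact e
  have w48 : (Matrix.trace (Yᴴ * (Y * (M * (M * (M)))))).re = (Matrix.trace (M * (M * (M * (Yᴴ * (Y)))))).re := by
    have e := congrArg Complex.re (Matrix.trace_mul_comm (Yᴴ * Y) (M * M * M))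
    simp only [mul_assoc] at e
    exact e
  have w49 : (Matrix.trace (Yᴴ * (Y * (M * (M * (M * (Zᴴ * (Z)))))))).re = (Matrix.trace (M * (M * (M * (Yᴴ * (Y * (Zᴴ * (Z)))))))).re := by
    rw [← re_trace_star (Yᴴ * (Y * (M * (M * (M * (Zᴴ * (Z)))))))]
    simp only [Matrix.conjTranspose_mul, Matrix.conjTranspose_conjTranspose, hM, mul_assoc]
    have e := congrArg Complex.re (Matrix.trace_mul_comm (Zᴴ * Z) (M * M * M * Yᴴ * Y))
    simp only [mul_assoc] at e
    exact e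
  have w50 : (Matrix.trace (Yᴴ * (Y * (M * (M * (Z * (M * (Zᴴ)))))))).re = (Matrix.trace (M * (M * (Z * (M * (Zᴴ * (Yᴴ * (Y)))))))).re := by
    have e := congrArg Complex.re (Matrix.trace_mul_comm (Yᴴ * Y) (M * M * Z * M * Zᴴ))
    simp only [mul_assoc] at e
    exact e
  have w51 : (Matrix.trace (Yᴴ * (Y * (M * (M * (Zᴴ * (Z * (M)))))))).re = (Matrix.trace (M * (M * (Yᴴ * (Y * (M * (Zᴴ * (Z)))))))).re := by
    rw [← re_trace_star (Yᴴ * (Y * (M * (M * (Zᴴ * (Z * (M)))))))]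
    simp only [Matrix.conjTranspose_mul, Matrix.conjTranspose_conjTranspose, hM, mul_assoc]
    have e := congrArg Complex.re (Matrix.trace_mul_comm (M * Zᴴ * Z) (M * M * Yᴴ * Y))
    simp only [mul_assoc] at e
    exact e
  have w52 : (Matrix.trace (Yᴴ * (Y * (M * (Z * (M * (Zᴴ * (M)))))))).re = (Matrix.trace (M * (Z * (M * (Zᴴ * (M * (Yᴴ * (Y)))))))).re := by
    have e := congrArg Complex.re (Matrix.trace_mul_comm (Yᴴ * Y) (M * Z * M * Zᴴ * M))
    simp only [mul_assoc] at e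
    exact e
  have w53 : (Matrix.trace (Yᴴ * (Y * (M * (Zᴴ * (Z * (M * (M)))))))).re = (Matrix.trace (M * (M * (Yᴴ * (Y * (M * (Zᴴ * (Z)))))))).re := by
    have e := congrArg Complex.re (Matrix.trace_mul_comm (Yᴴ * Y * M * Zᴴ * Z) (M * M))
    simp only [mul_assoc] at e
    exact e
  have w54 : (Matrix.trace (Yᴴ * (Z * (M * (Zᴴ * (M * (Y * (M)))))))).re = (Matrix.trace (M * (Y * (M * (Yᴴ * (Z * (M * (Zᴴ)))))))).re := by
    have e := congrArg Complex.re (Matrix.trace_mul_comm (Yᴴ * Z * M * Zᴴ) (M * Y * M))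
    simp only [mul_assoc] at e
    exact e
  have w55 : (Matrix.trace (Yᴴ * (Z * (M * (Zᴴ * (Y * (M * (M)))))))).re = (Matrix.trace (M * (M * (Yᴴ * (Z * (M * (Zᴴ * (Y)))))))).re := by
    have e := congrArg Complex.re (Matrix.trace_mul_comm (Yᴴ * Z * M * Zᴴ * Y) (M * M))
    simp only [mul_assoc] at e
    exact e
  have w56 : (Matrix.trace (Yᴴ * (Zᴴ * (Z * (M * (M * (Y * (M)))))))).re = (Matrix.trace (M * (M * (Y * (M * (Yᴴ * (Zᴴ * (Z)))))))).re := by
    have e := congrArg Complex.re (Matrix.trace_mul_comm (Yᴴ * Zᴴ * Z) (M * M * Y * M))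
    simp only [mul_assoc] at e
    exact e
  have w57 : (Matrix.trace (Yᴴ * (Zᴴ * (Z * (M * (Y * (M * (M)))))))).re = (Matrix.trace (M * (M * (Yᴴ * (M * (Zᴴ * (Z * (Y)))))))).re := by
    rw [← re_trace_star (Yᴴ * (Zᴴ * (Z * (M * (Y * (M * (M)))))))]
    simp only [Matrix.conjTranspose_mul, Matrix.conjTranspose_conjTranspose, hM, mul_assoc]
  have w58 : (Matrix.trace (Zᴴ * (Z * (M * (Yᴴ * (M * (Y * (M)))))))).re = (Matrix.trace (M * (Y * (M * (Zᴴ * (Z * (M * (Yᴴ)))))))).re := by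
    have e := congrArg Complex.re (Matrix.trace_mul_comm (Zᴴ * Z * M * Yᴴ) (M * Y * M))
    simp only [mul_assoc] at e
    exact e
  have w59 : (Matrix.trace (Zᴴ * (Z * (M * (Yᴴ * (Y * (M * (M)))))))).re = (Matrix.trace (M * (M * (Yᴴ * (Y * (M * (Zᴴ * (Z)))))))).re := by
    rw [← re_trace_star (Zᴴ * (Z * (M * (Yᴴ * (Y * (M * (M)))))))]
    simp only [Matrix.conjTranspose_mul, Matrix.conjTranspose_conjTranspose, hM, mul_assoc]
  simp only [nsq, comU, comV, sylv, bgen, Matrix.conjTranspose_mul, Matrix.conjTranspose_sub,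
    Matrix.conjTranspose_add, Matrix.conjTranspose_smul, Matrix.conjTranspose_conjTranspose,
    RCLike.star_def, Complex.conj_ofReal, hM, mul_add, add_mul, mul_sub, sub_mul,
    mul_smul_comm, smul_mul_assoc, smul_add, smul_sub, smul_smul, mul_assoc,
    Matrix.trace_add, Matrix.trace_sub, Matrix.trace_smul, smul_eq_mul,
    Complex.add_re, Complex.sub_re, Complex.re_ofReal_mul, ← Complex.ofReal_mul,
    w2, w6, w7, w8, w9, w10, w11, w12, w13, w14, w15, w16, w17, w18, w19, w20, w21, w22, w23, w24, w25, w26, w27, w28, w29, w30, w31, w32, w33, w34, w35, w36, w37, w38, w39, w40, w41, w42, w43, w44, w45, w46, w47, w48, w49, w50, w51, w52, w53, w54, w55, w56, w57, w58, w59] at n1 n2 z1 z2 z3 z4 ⊢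
  linear_combination -s * n1 + s * n2 - (1 - s) * z1 - s * z2 + (1 + s) * z3 - s * z4

end Vale.Agent.P369.Block
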