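import Mathlib
import Vale.Agent.P369.Block.Alg
import Vale.Agent.P369.Classical.Sylv
import Vale.Agent.P369.Fock.Flow

/-!
# P369: the two differential inequalities on number-block states
-/

namespace Vale.Agent.P369.Block

open Matrix Vale.Agent.P369.Classical
open scoped ComplexOrder
open Vale.Agent.P369.Fock

variable {n K : ℕ}

theorem annih_apply (j : Fin n) (c a : box n K) :
    annih n K j c a = if (a : Idx n) = Function.update (c : Idx n) j ((c : Idx n) j + 1) then
      (Real.sqrt ((a : Idx n) j) : ℂ) else 0 := rfl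

theorem annih_mul_annih (j k : Fin n) (c b : box n K) (hjk : j ≠ k) :
    (annih n K j * annih n K k) c b =
      if (b : Idx n) = Function.update (Function.update (c : Idx n) j ((c : Idx n) j + 1)) k ((c : Idx n) k + 1)
      then ((Real.sqrt ((b : Idx n) j) * Real.sqrt ((b : Idx n) k) : ℝ) : ℂ) else 0 := by
  rw [Matrix.mul_apply]
  obtain ⟨u, hu⟩ : ∃ u, u = Function.update (c : Idx n) j ((c : Idx n) j + 1) := ⟨_, rfl⟩
  have huk : u k = (c : Idx n) k := by rw [hu, Function.update_of_ne hjk.symm]
  by_cases hub : u ∈ box n K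
  · rw [Finset.sum_eq_single ⟨u, hub⟩]
    · simp only [annih_apply, ← hu, huk, if_true, mul_ite, mul_zero]
      split_ifs with h
      · rw [Complex.ofReal_mul, h, Function.update_of_ne hjk]
      · rfl
    · intro a _ ha
      rw [annih_apply, if_neg fun e => ha (Subtype.ext (e.trans hu.symm)), zero_mul]
    · exact fun h => absurd (Finset.mem_univ _) h
  · rw [Finset.sum_eq_zero fun a _ => by
      rw [annih_apply, if_neg fun e : (a : Idx n) = Function.update (c : Idx n) j ((c : Idx n) j + 1) =>
        hub (show u ∈ box n K by rw [hu, ← e]; exact a.2), zero_mul]]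
    rw [← hu, if_neg]
    intro h
    refine hub (mem_box.2 (le_trans ?_ (mem_box.1 b.2)))
    rw [h]
    refine Finset.sum_le_sum fun i _ => ?_
    rcases eq_or_ne i k with rfl | hi
    · simp [huk]
    · simp [hi]

theorem annih_comm (j k : Fin n) : annih n K j * annih n K k = annih n K k * annih n K j := by
  rcases eq_or_ne j k with rfl | hjk
  · rfl
  ext c b
  rw [annih_mul_annih j k c b hjk, annih_mul_annih k j c b hjk.symm, Function.update_comm hjk,
    mul_comm (Real.sqrt _)]

theorem number_comm (j k : Fin n) :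
    (annih n K k)ᴴ * annih n K k * annih n K j - annih n K j * ((annih n K k)ᴴ * annih n K k)
      = -((((if j = k then 1 else 0 : ℝ)) : ℂ) • annih n K j) := by
  have hd : (annih n K k)ᴴ * annih n K k = Matrix.diagonal fun a : box n K => ((a : Idx n) k : ℂ) := by
    ext a b
    rw [annih_conj_mul, Matrix.diagonal_apply]
  ext c a
  rw [hd, Matrix.sub_apply, Matrix.diagonal_mul, Matrix.mul_diagonal, Matrix.neg_apply, Matrix.smul_apply,
    smul_eq_mul, annih_apply]
  by_cases h : (a : Idx n) = Function.update (c : Idx n) j ((c : Idx n) j + 1)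
  · rw [if_pos h]
    rcases eq_or_ne j k with rfl | hjk
    · simp [h]; ring
    · simp [h, hjk, hjk.symm]; ring
  · simp [h]

/-- The Fisher gap of one mode. -/
noncomputable def gapB (M X a : Matrix (box n K) (box n K) ℂ) : ℝ :=
  (trace (Xᴴ * (M * a * M - a * M * M))).re

/-- The derivative of the Fisher gap along the semigroup. -/
noncomputable def gapT (M G X Xd a : Matrix (box n K) (box n K) ℂ) : ℝ :=
  gapB M Xd a + (trace (Xᴴ * (G * a * M + M * a * G - a * G * M - a * M * G))).re

variable {M : Matrix (box n K) (box n K) ℂ} {s : ℝ}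

theorem lind_eq : lind M = ∑ k, bgen M (annih n K k) := by
  simp only [lind, bgen]
  refine Finset.sum_congr rfl fun k _ => ?_
  norm_num

theorem wmat_eq {X a : Matrix (box n K) (box n K) ℂ} (h : sylv s M X = a) :
    M * a * M - a * M * M = sylv s M (M * X * M - X * M * M) := by
  rw [← h]
  simp only [sylv, mul_add, add_mul, mul_sub, sub_mul, mul_smul_comm, smul_mul_assoc, mul_assoc, smul_sub]
  abel

theorem sylv_adj (hM : M.IsHermitian) (A B : Matrix (box n K) (box n K) ℂ) :
    trace (Aᴴ * sylv s M B) = trace ((sylv s M A)ᴴ * B) := by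
  simp only [sylv, mul_add, add_mul, conjTranspose_add, conjTranspose_smul, conjTranspose_mul,
    RCLike.star_def, Complex.conj_ofReal, hM.eq, mul_smul_comm, smul_mul_assoc, trace_add, trace_smul,
    mul_assoc]
  rw [trace_mul_comm M (Aᴴ * B)]
  simp only [mul_assoc]

theorem time_identity (hM : M.IsHermitian) (j : Fin n) {X Xd : Matrix (box n K) (box n K) ℂ}
    (hX : sylv s M X = annih n K j)
    (hXd : sylv s M Xd = -((s : ℂ) • (lind M * X) + ((1 - s : ℝ) : ℂ) • (X * lind M))) :
    s * (gapT M (lind M) X Xd (annih n K j) + gapB M X (annih n K j))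
      = ∑ k, (s * nsq M (comU M X (annih n K k))ᴴ + (1 - s) * nsq M (comV M X (annih n K k))ᴴ) := by
  obtain ⟨a, ea⟩ : ∃ a, a = annih n K j := ⟨_, rfl⟩
  obtain ⟨G, eG⟩ : ∃ G : Fin n → Matrix (box n K) (box n K) ℂ, G = fun k => bgen M (annih n K k) := ⟨_, rfl⟩
  rw [← ea] at hX ⊢
  have hd : gapB M Xd a = ∑ k, (-s * (trace ((G k * X)ᴴ * (M * X * M - X * M * M))).re
      - (1 - s) * (trace ((X * G k)ᴴ * (M * X * M - X * M * M))).re) := by
    rw [gapB, wmat_eq hX, sylv_adj hM, hXd, lind_eq]
    simp only [eG, conjTranspose_neg, conjTranspose_add, conjTranspose_smul, RCLike.star_def,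
      Complex.conj_ofReal, neg_mul, add_mul, smul_mul_assoc, Finset.mul_sum, Finset.sum_mul,
      conjTranspose_sum, trace_neg, trace_add, trace_smul, trace_sum, smul_eq_mul, Complex.neg_re,
      Complex.add_re, Complex.re_ofReal_mul, Complex.re_sum, Finset.sum_sub_distrib, Finset.sum_neg_distrib]
    ring
  have hw : (trace (Xᴴ * (lind M * a * M + M * a * lind M - a * lind M * M - a * M * lind M))).re
      = ∑ k, (trace (Xᴴ * (G k * a * M + M * a * G k - a * G k * M - a * M * G k))).re := by
    rw [lind_eq]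
    simp only [eG, mul_sub, mul_add, Finset.sum_mul, Finset.mul_sum, trace_sub, trace_add, trace_sum,
      Complex.sub_re, Complex.add_re, Complex.re_sum, Finset.sum_sub_distrib, Finset.sum_add_distrib]
  have hδ : gapB M X a = ∑ k, (if j = k then 1 else 0 : ℝ) * gapB M X a := by simp
  rw [gapT, hd, hw, hδ, ← Finset.sum_add_distrib, ← Finset.sum_add_distrib, Finset.mul_sum]
  refine Finset.sum_congr rfl fun k _ => ?_
  have h := pair_identity hM.eq (Y := X) (Z := annih n K k) (s := s) (δ := if j = k then 1 else 0)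
    (by rw [hX, ea, annih_comm]) (by rw [hX, ea, number_comm])
  rw [hX] at h
  simp only [eG, gapB] at h ⊢
  exact h

theorem space_identity (hM : M.IsHermitian) {X Xs a : Matrix (box n K) (box n K) ℂ}
    (hX : sylv s M X = a) (hXs : sylv s M Xs = X * M - M * X) :
    -s * gapB M Xs a - gapB M X a = nsq M (X * M)ᴴ - nsq M (X * M) := by
  have h1 : gapB M Xs a = (trace ((X * M - M * X)ᴴ * (M * X * M - X * M * M))).re := by
    rw [gapB, wmat_eq hX, sylv_adj hM, hXs]
  rw [h1, gapB, ← hX]
  simp only [nsq, sylv, conjTranspose_sub, conjTranspose_mul, conjTranspose_conjTranspose, hM.eq,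
    mul_add, add_mul, mul_sub, sub_mul, mul_smul_comm, smul_mul_assoc, mul_assoc,
    trace_add, trace_sub, trace_smul, smul_eq_mul, Complex.add_re, Complex.sub_re,
    Complex.re_ofReal_mul]
  have t1 : trace (X * (M * (M * (M * Xᴴ)))) = trace (Xᴴ * (X * (M * (M * M)))) := by
    rw [show X * (M * (M * (M * Xᴴ))) = (X * (M * (M * M))) * Xᴴ by simp only [mul_assoc], trace_mul_comm]
  have t2 : trace (M * (Xᴴ * (M * (X * M)))) = trace (Xᴴ * (M * (X * (M * M)))) := by
    rw [trace_mul_comm M]; simp only [mul_assoc]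
  have t3 : trace (M * (Xᴴ * (M * (M * X)))) = trace (Xᴴ * (M * (M * (X * M)))) := by
    rw [trace_mul_comm M]; simp only [mul_assoc]
  have t4 : trace (M * (Xᴴ * (X * (M * M)))) = trace (Xᴴ * (X * (M * (M * M)))) := by
    rw [trace_mul_comm M]; simp only [mul_assoc]
  simp only [t1, t2, t3, t4]
  ring

theorem sq_trace_le {ι : Type*} [Fintype ι] [DecidableEq ι] {M : Matrix ι ι ℂ} (hM : M.PosSemidef)
    (htr : M.trace = 1) (U : Matrix ι ι ℂ) : (trace (U * M)).re ^ 2 ≤ nsq M Uᴴ := by
  obtain ⟨c, hc⟩ : ∃ c : ℝ, c = (trace (U * M)).re := ⟨_, rfl⟩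
  have h := nsq_nonneg hM (Uᴴ - (c : ℂ) • (1 : Matrix ι ι ℂ))
  have e' : (trace (M * Uᴴ)).re = c := by
    rw [← re_trace_star (M * Uᴴ), conjTranspose_mul, conjTranspose_conjTranspose, hM.1.eq, hc]
  simp only [nsq, conjTranspose_sub, conjTranspose_smul, conjTranspose_one, conjTranspose_conjTranspose,
    RCLike.star_def, Complex.conj_ofReal, sub_mul, mul_sub, smul_mul_assoc, mul_smul_comm, one_mul, mul_one,
    trace_sub, trace_smul, smul_eq_mul, Complex.sub_re, Complex.re_ofReal_mul, e', ← hc, htr,
    Complex.ofReal_re, Complex.one_re, smul_sub] at h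
  rw [← hc, nsq, conjTranspose_conjTranspose]
  nlinarith [h]

theorem trace_comU_mul {ι : Type*} [Fintype ι] (M X a : Matrix ι ι ℂ) :
    trace (comU M X a * M) = trace (Xᴴ * (M * a * M - a * M * M)) := by
  rw [comU, sub_mul, mul_sub, trace_sub, trace_sub,
    show a * M * Xᴴ * M = (a * M) * (Xᴴ * M) by simp only [mul_assoc], trace_mul_comm,
    show M * Xᴴ * a * M = M * (Xᴴ * a * M) by simp only [mul_assoc], trace_mul_comm M]
  simp only [mul_assoc]

theorem gapB_sq_le (hM : M.PosSemidef) (htr : M.trace = 1) (X a : Matrix (box n K) (box n K) ℂ) :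
    gapB M X a ^ 2 ≤ nsq M (comU M X a)ᴴ := by
  rw [gapB, ← trace_comU_mul M X a]
  exact sq_trace_le hM htr _

/-- The two differential inequalities. -/
theorem flow_ineq (hQ : QBlock n) (hM : M.PosDef) (htr : M.trace = 1) (hb : IsBlock M)
    (hs : 0 < s) (hs1 : s < 1) {X Xd Xs : Fin n → Matrix (box n K) (box n K) ℂ}
    (hX : ∀ j, sylv s M (X j) = annih n K j)
    (hXd : ∀ j, sylv s M (Xd j) = -((s : ℂ) • (lind M * X j) + ((1 - s : ℝ) : ℂ) • (X j * lind M)))
    (hXs : ∀ j, sylv s M (Xs j) = X j * M - M * X j) :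
    (∑ j, gapB M (X j) (annih n K j)) ^ 2
        ≤ n * ∑ j, (gapT M (lind M) (X j) (Xd j) (annih n K j) + gapB M (X j) (annih n K j))
      ∧ s * ∑ j, gapB M (Xs j) (annih n K j) ≤ ∑ j, gapT M (lind M) (X j) (Xd j) (annih n K j) := by
  have hid := fun j => time_identity hM.1 j (hX j) (hXd j)
  have hU : ∀ j, ∑ k, nsq M (comU M (X j) (annih n K k))ᴴ
      ≤ gapT M (lind M) (X j) (Xd j) (annih n K j) + gapB M (X j) (annih n K j) := fun j => by
    refine le_of_mul_le_mul_left ?_ hs
    rw [hid j, Finset.mul_sum]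
    exact Finset.sum_le_sum fun k _ =>
      le_add_of_nonneg_right (mul_nonneg (sub_nonneg.2 hs1.le) (nsq_nonneg hM.posSemidef _))
  constructor
  · refine le_trans ?_ (mul_le_mul_of_nonneg_left (Finset.sum_le_sum fun j _ => hU j) (Nat.cast_nonneg n))
    have h := sq_sum_le_card_mul_sum_sq (s := (Finset.univ : Finset (Fin n)))
      (f := fun j => gapB M (X j) (annih n K j))
    rw [Finset.card_univ, Fintype.card_fin] at h
    refine h.trans (mul_le_mul_of_nonneg_left (Finset.sum_le_sum fun j _ => ?_) (Nat.cast_nonneg n))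
    exact (gapB_sq_le hM.posSemidef htr _ _).trans (Finset.single_le_sum
      (f := fun k => nsq M (comU M (X j) (annih n K k))ᴴ) (fun k _ => nsq_nonneg hM.posSemidef _)
      (Finset.mem_univ j))
  · have hq := hQ K M hM htr hb s hs hs1 X hX
    refine le_of_mul_le_mul_left ?_ hs
    simp only [drift, ← hid, ← space_identity hM.1 (hX _) (hXs _), Finset.mul_sum] at hq
    rw [Finset.mul_sum, Finset.mul_sum, Finset.mul_sum]
    simp only [mul_add, mul_sub, Finset.sum_add_distrib, Finset.sum_sub_distrib, neg_mul,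
      mul_neg, Finset.sum_neg_distrib] at hq
    linarith

end Vale.Agent.P369.Block
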