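import Mathlib
import Vale.Agent.P369.Block.Ineq
import Vale.Agent.P369.Classical.Rate

/-!
# P369: the entropy production on the truncated space as an integral of Fisher gaps
-/

namespace Vale.Agent.P369.Block

open Matrix MeasureTheory Set Vale.Agent.P369.Classical
open scoped ComplexConjugate ComplexOrder Interval
open Vale.Agent.P369.Fock

variable {n K : ℕ}

theorem integral_ratio_loss {p q : ℝ} (hp : 0 < p) (hq : 0 < q) :
    IntervalIntegrable (fun s : ℝ => q * (p - q) / (s * p + (1 - s) * q)) volume 0 1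
      ∧ ∫ s in (0 : ℝ)..1, q * (p - q) / (s * p + (1 - s) * q)
        = q * (Real.log p - Real.log q) := by
  obtain ⟨hi, he⟩ := integral_ratio hp hq
  have e : (fun s : ℝ => q * (p - q) / (s * p + (1 - s) * q))
      = fun s => (q / p) * ((p ^ 2 - p * q) / (s * p + (1 - s) * q)) := by
    funext s
    field_simp
  rw [e]
  refine ⟨hi.const_mul _, ?_⟩
  rw [intervalIntegral.integral_const_mul, he]
  field_simp

theorem gapB_eigen {ι : Type*} [Fintype ι] [DecidableEq ι] {M U a A : Matrix ι ι ℂ} {p : ι → ℝ}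
    (hM : M.PosDef) (hp : ∀ i, 0 < p i) (hU : Uᴴ * U = 1)
    (hdec : M = U * diagonal (fun i => (p i : ℂ)) * Uᴴ) (hZ : a = U * A * Uᴴ) {s : ℝ}
    (hs : s ∈ Icc (0 : ℝ) 1) :
    (trace ((sol s M a)ᴴ * (M * a * M - a * M * M))).re
      = ∑ i, ∑ k, ‖A i k‖ ^ 2 * (p k * (p i - p k) / (s * p i + (1 - s) * p k)) := by
  have conj_mul := fun X Y => conj_conj_mul U X Y hU
  have hd : ∀ i k, 0 < s * p i + (1 - s) * p k := fun i k => by
    rcases hs.1.eq_or_lt with h | h
    · subst h; simpa using hp k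
    · nlinarith [mul_pos h (hp i), mul_nonneg (sub_nonneg.2 hs.2) (hp k).le]
  obtain ⟨D, eD⟩ : ∃ D : Matrix ι ι ℂ, D = diagonal fun i => (p i : ℂ) := ⟨_, rfl⟩
  rw [← eD] at hdec
  obtain ⟨Y, eY⟩ : ∃ Y : Matrix ι ι ℂ,
      Y = Matrix.of fun i k => A i k / ((s * p i + (1 - s) * p k : ℝ) : ℂ) := ⟨_, rfl⟩
  have hY : sylv s D Y = A := by
    ext i k
    simp only [sylv, eD, eY, Matrix.add_apply, Matrix.smul_apply, smul_eq_mul, Matrix.diagonal_mul,
      Matrix.mul_diagonal, Matrix.of_apply]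
    have h1 : ((s * p i + (1 - s) * p k : ℝ) : ℂ) ≠ 0 := Complex.ofReal_ne_zero.2 (hd i k).ne'
    push_cast at h1 ⊢
    field_simp
  have hsol : sol s M a = U * Y * Uᴴ := by
    refine sub_eq_zero.1 (sylv_eq_zero hM hs.1 hs.2 ?_)
    have h1 : sylv s M (U * Y * Uᴴ) = a := by
      rw [hZ, ← hY, sylv, sylv, hdec, conj_mul, conj_mul]
      simp only [mul_add, add_mul, mul_smul_comm, smul_mul_assoc]
    have h2 := sylv_sol hM hs.1 hs.2 a
    simp only [sylv, mul_sub, sub_mul, smul_sub] at h1 h2 ⊢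
    rw [sub_add_sub_comm, h2, h1, sub_self]
  rw [hsol, hZ, hdec, conj_mul, conj_mul, conj_mul, conj_mul,
    show (U * Y * Uᴴ)ᴴ = U * Yᴴ * Uᴴ by simp [mul_assoc], ← sub_mul, ← mul_sub, conj_mul,
    trace_mul_cycle, hU, one_mul, eD]
  simp only [trace, diag_apply, Matrix.mul_apply, Matrix.conjTranspose_apply, Matrix.sub_apply,
    diagonal_apply, ite_mul, mul_ite, zero_mul, mul_zero, Finset.sum_ite_eq, Finset.sum_ite_eq',
    Finset.mem_univ, if_true, Complex.re_sum, eY, Matrix.of_apply, RCLike.star_def, map_div₀,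
    Complex.conj_ofReal]
  rw [Finset.sum_comm]
  refine Finset.sum_congr rfl fun i _ => Finset.sum_congr rfl fun k _ => ?_
  rw [show conj (A i k) / ((s * p i + (1 - s) * p k : ℝ) : ℂ)
      * ((p i : ℂ) * A i k * (p k : ℂ) - A i k * (p k : ℂ) * (p k : ℂ))
    = ((((p k * (p i - p k)) / (s * p i + (1 - s) * p k) : ℝ)) : ℂ) * (conj (A i k) * A i k) by
      push_cast; ring, ← Complex.normSq_eq_conj_mul_self, ← Complex.ofReal_mul, Complex.ofReal_re,
    Complex.normSq_eq_norm_sq, mul_comm]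

/-- The entropy production. -/
theorem rate_eq_integral {M U : Matrix (box n K) (box n K) ℂ} (hM : M.PosDef) {p : box n K → ℝ}
    (hp : ∀ i, 0 < p i) (hU : Uᴴ * U = 1) (hU' : U * Uᴴ = 1)
    (hdec : M = U * diagonal (fun i => (p i : ℂ)) * Uᴴ) :
    ∑ i, (-Real.log (p i) - 1) * ((Uᴴ * lind M * U) i i).re
      = -∫ s in (0 : ℝ)..1, ∑ j, gapB M (sol s M (annih n K j)) (annih n K j) := by
  obtain ⟨A, eA⟩ : ∃ A : Fin n → Matrix (box n K) (box n K) ℂ, A = fun j => Uᴴ * annih n K j * U := ⟨_, rfl⟩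
  have hgap : ∀ s ∈ Icc (0 : ℝ) 1, ∀ j, gapB M (sol s M (annih n K j)) (annih n K j)
      = ∑ i, ∑ k, ‖A j i k‖ ^ 2 * (p k * (p i - p k) / (s * p i + (1 - s) * p k)) := fun s hs j =>
    gapB_eigen hM hp hU hdec (by rw [eA]; exact (conj_back _ hU').symm) hs
  have hint : (∫ s in (0 : ℝ)..1, ∑ j, gapB M (sol s M (annih n K j)) (annih n K j))
      = ∑ j, ∑ i, ∑ k, ‖A j i k‖ ^ 2 * (p k * (Real.log (p i) - Real.log (p k))) := by
    rw [intervalIntegral.integral_congr (g := fun s => ∑ q : Fin n × box n K × box n K,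
      ‖A q.1 q.2.1 q.2.2‖ ^ 2 * (p q.2.2 * (p q.2.1 - p q.2.2) / (s * p q.2.1 + (1 - s) * p q.2.2)))
      (fun s hs => by
        rw [uIcc_of_le zero_le_one] at hs
        simp only [Fintype.sum_prod_type, hgap s hs]),
      intervalIntegral.integral_finsetSum fun q _ => (integral_ratio_loss (hp _) (hp _)).1.const_mul _,
      Fintype.sum_prod_type]
    simp only [intervalIntegral.integral_const_mul, (integral_ratio_loss (hp _) (hp _)).2,
      Fintype.sum_prod_type]
  rw [hint, hdec, rate_eq U hU hU' p, rate, ← Finset.sum_neg_distrib]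
  refine Finset.sum_congr rfl fun j _ => ?_
  rw [Finset.sum_comm, ← Finset.sum_neg_distrib]
  refine Finset.sum_congr rfl fun i _ => ?_
  rw [← Finset.sum_neg_distrib]
  refine Finset.sum_congr rfl fun k _ => ?_
  rw [eA]
  ring

end Vale.Agent.P369.Block
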