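import Mathlib
import Vale.Agent.P369.Block.Rate
import Vale.Agent.P369.Classical.Curve
import Vale.Agent.P369.Fock.Main

/-!
# P369: the entropy bound along the attenuator for number-block states
-/

namespace Vale.Agent.P369.Block

open Matrix MeasureTheory Set Filter Vale.Agent.P369.Classical VAgent.P358
open scoped ComplexOrder Topology
open Vale.Agent.P369.Fock

variable {n K : ℕ}

theorem isBlock_att (η : ℝ) {M : Matrix (box n K) (box n K) ℂ} (hb : IsBlock M) : IsBlock (att η M) := by
  intro c c' h
  rw [att_apply]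
  refine Finset.sum_eq_zero fun d _ => ?_
  have : ext M ((c : Idx n) + d) ((c' : Idx n) + d) = 0 := by
    rw [Fock.ext]
    split_ifs with hh
    · exact hb _ _ (by simp only [photons_add]; omega)
    · rfl
  rw [this, mul_zero]

/-- The normalised sum of the gaps. -/
noncomputable def favg (M : Matrix (box n K) (box n K) ℂ) (s : ℝ) : ℝ :=
  (∑ j, gapB M (sol s M (annih n K j)) (annih n K j)) / n

/-- Its time derivative. -/
noncomputable def favgT (M : Matrix (box n K) (box n K) ℂ) (s : ℝ) : ℝ :=
  (∑ j, gapT M (lind M) (sol s M (annih n K j))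
    (sol s M (0 - sylv s (lind M) (sol s M (annih n K j))
      - ((0 : ℝ) : ℂ) • (M * sol s M (annih n K j) - sol s M (annih n K j) * M)))
    (annih n K j)) / n

/-- Its derivative in `s`. -/
noncomputable def favgS (M : Matrix (box n K) (box n K) ℂ) (s : ℝ) : ℝ :=
  (∑ j, gapB M (sol s M (0 - sylv s 0 (sol s M (annih n K j))
      - ((1 : ℝ) : ℂ) • (M * sol s M (annih n K j) - sol s M (annih n K j) * M))) (annih n K j)) / n

theorem continuous_lind : Continuous (lind : Matrix (box n K) (box n K) ℂ → _) := by
  refine continuous_pi fun c => continuous_pi fun c' => ?_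
  simp only [lind, Matrix.sum_apply, Matrix.sub_apply, Matrix.smul_apply, Matrix.add_apply, Matrix.mul_apply]
  fun_prop

section Continuity

variable {ι X : Type*} [Fintype ι] [TopologicalSpace X] {S : Set X} {A B : X → Matrix ι ι ℂ}

theorem continuousOn_mmul (hA : ContinuousOn A S) (hB : ContinuousOn B S) :
    ContinuousOn (fun q => A q * B q) S :=
  (continuous_fst.matrix_mul continuous_snd).comp_continuousOn (hA.prodMk hB)

theorem continuousOn_pairing {M Y G : X → Matrix ι ι ℂ} (a : Matrix ι ι ℂ) (hY : ContinuousOn Y S)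
    (hM : ContinuousOn M S) (hG : ContinuousOn G S) :
    ContinuousOn (fun q => (trace ((Y q)ᴴ * (M q * a * M q - a * M q * M q))).re) S
      ∧ ContinuousOn (fun q => (trace ((Y q)ᴴ
          * (G q * a * M q + M q * a * G q - a * G q * M q - a * M q * G q))).re) S := by
  have hY' : ContinuousOn (fun q => (Y q)ᴴ) S := continuous_id.matrix_conjTranspose.comp_continuousOn hY
  have ha : ContinuousOn (fun _ : X => a) S := continuousOn_const
  have htr := fun (A : X → Matrix ι ι ℂ) (hA : ContinuousOn A S) =>
    (Complex.continuous_re.comp (continuous_id.matrix_trace)).comp_continuousOn hA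
  refine ⟨htr _ (continuousOn_mmul hY' ((continuousOn_mmul (continuousOn_mmul hM ha) hM).sub
    (continuousOn_mmul (continuousOn_mmul ha hM) hM))), htr _ (continuousOn_mmul hY' ?_)⟩
  exact ((((continuousOn_mmul (continuousOn_mmul hG ha) hM).add (continuousOn_mmul (continuousOn_mmul hM ha) hG)).sub
    (continuousOn_mmul (continuousOn_mmul ha hG) hM)).sub (continuousOn_mmul (continuousOn_mmul ha hM) hG))

theorem continuousOn_rhs {M Y G : X → Matrix ι ι ℂ} {s : X → ℝ} (hY : ContinuousOn Y S)
    (hM : ContinuousOn M S) (hG : ContinuousOn G S) (hs : ContinuousOn s S) :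
    ContinuousOn (fun q => 0 - sylv (s q) (G q) (Y q) - ((0 : ℝ) : ℂ) • (M q * Y q - Y q * M q)) S := by
  have h1 : ContinuousOn (fun q => (s q : ℂ)) S := Complex.continuous_ofReal.comp_continuousOn hs
  have h2 : ContinuousOn (fun q => ((1 - s q : ℝ) : ℂ)) S :=
    Complex.continuous_ofReal.comp_continuousOn (continuousOn_const.sub hs)
  simp only [sylv, Complex.ofReal_zero, zero_smul, sub_zero]
  exact continuousOn_const.sub ((h1.smul (continuousOn_mmul hG hY)).add (h2.smul (continuousOn_mmul hY hG)))

end Continuity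

theorem continuousOn_favg {C : ℝ → Matrix (box n K) (box n K) ℂ} (hC : Continuous C) {S : Set ℝ}
    (hpd : ∀ t, (C t).PosDef) :
    ContinuousOn (Function.uncurry fun t s => favg (C t) s) (S ×ˢ Icc 0 1)
      ∧ ContinuousOn (Function.uncurry fun t s => favgT (C t) s) (S ×ˢ Icc 0 1) := by
  have hM : ContinuousOn (fun q : ℝ × ℝ => C q.1) (S ×ˢ Icc 0 1) := (hC.comp continuous_fst).continuousOn
  have hG : ContinuousOn (fun q : ℝ × ℝ => lind (C q.1)) (S ×ˢ Icc 0 1) :=
    (continuous_lind.comp (hC.comp continuous_fst)).continuousOn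
  have hL : ∀ (Z : ℝ × ℝ → Matrix (box n K) (box n K) ℂ), ContinuousOn Z (S ×ˢ Icc 0 1) →
      ContinuousOn (fun q : ℝ × ℝ => sol q.2 (C q.1) (Z q)) (S ×ˢ Icc 0 1) := fun Z hZ q hq =>
    continuousWithinAt_sol continuous_snd.continuousWithinAt (hC.comp continuous_fst).continuousWithinAt
      (hZ q hq) (isUnit_det_sylvMat (hpd _) hq.2.1 hq.2.2)
  have hX : ∀ j, ContinuousOn (fun q : ℝ × ℝ => sol q.2 (C q.1) (annih n K j)) (S ×ˢ Icc 0 1) :=
    fun j => hL (fun _ => annih n K j) continuousOn_const
  constructor
  · exact (continuousOn_finsetSum _ fun j _ => (continuousOn_pairing (annih n K j) (hX j) hM hG).1).div_const _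
  · exact (continuousOn_finsetSum _ fun j _ =>
      (continuousOn_pairing (annih n K j) (hL _ (continuousOn_rhs (hX j) hM hG continuous_snd.continuousOn)) hM hG).1.add
        (continuousOn_pairing (annih n K j) (hX j) hM hG).2).div_const _

theorem hasDerivAt_gap {C Y : ℝ → Matrix (box n K) (box n K) ℂ} {C' Y' : Matrix (box n K) (box n K) ℂ}
    {t : ℝ} (a : Matrix (box n K) (box n K) ℂ) (hC : ∀ i j, HasDerivAt (fun r => C r i j) (C' i j) t)
    (hY : ∀ i j, HasDerivAt (fun r => Y r i j) (Y' i j) t) :
    HasDerivAt (fun r => gapB (C r) (Y r) a) (gapT (C t) C' (Y t) Y' a) t := by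
  have hmul : ∀ {A B : ℝ → Matrix (box n K) (box n K) ℂ} {A' B' : Matrix (box n K) (box n K) ℂ},
      (∀ i j, HasDerivAt (fun r => A r i j) (A' i j) t) → (∀ i j, HasDerivAt (fun r => B r i j) (B' i j) t) →
      ∀ i j, HasDerivAt (fun r => (A r * B r) i j) ((A' * B t + A t * B') i j) t :=
    fun {A B A' B'} hA hB i j => by
      simp only [Matrix.mul_apply, Matrix.add_apply, ← Finset.sum_add_distrib]
      exact HasDerivAt.fun_sum fun k _ => (hA i k).mul (hB k j)
  have hc : ∀ i j, HasDerivAt (fun _ : ℝ => a i j) ((0 : Matrix (box n K) (box n K) ℂ) i j) t :=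
    fun i j => hasDerivAt_const t _
  have hW : ∀ i j, HasDerivAt (fun r => (C r * a * C r - a * C r * C r) i j)
      ((C' * a * C t + C t * a * C' - a * C' * C t - a * C t * C') i j) t := fun i j => by
    refine ((hmul (hmul hC hc) hC i j).sub (hmul (hmul hc hC) hC i j)).congr_deriv ?_
    simp [add_mul, Matrix.sub_apply, Matrix.add_apply]
    ring
  have h : ∀ i j, HasDerivAt (fun r => (star (Y r j i)) * (C r * a * C r - a * C r * C r) j i)
      (star (Y' j i) * (C t * a * C t - a * C t * C t) j i
        + star (Y t j i) * (C' * a * C t + C t * a * C' - a * C' * C t - a * C t * C') j i) t :=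
    fun i j => (hY j i).star.mul (hW j i)
  have h' := Complex.reCLM.hasFDerivAt.comp_hasDerivAt t
    (HasDerivAt.fun_sum (u := Finset.univ) fun i _ => HasDerivAt.fun_sum (u := Finset.univ) fun j _ => h i j)
  simp only [gapB, gapT, trace, diag_apply, Matrix.mul_apply (M := (_)ᴴ), conjTranspose_apply]
  refine h'.congr_deriv ?_
  simp only [Complex.reCLM_apply, Finset.sum_add_distrib, Complex.add_re]

/-- The entropy bound along the semigroup for faithful number-block states. -/
theorem flow_bound_block (hQ : QBlock n) {M : Matrix (box n K) (box n K) ℂ} (hM : M.PosDef)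
    (htr : M.trace = 1) (hb : IsBlock M) {N : ℝ} (hN : 0 < N) (hS : n * g N ≤ nent M) {T : ℝ}
    (hT : 0 ≤ T) : n * g (N * Real.exp (-T)) ≤ nent (att (Real.exp (-T)) M) := by
  rcases Nat.eq_zero_or_pos n with hn | hn
  · subst hn
    simp only [Nat.cast_zero, zero_mul]
    refine nent_nonneg (att_posSemidef _ hM.posSemidef) ?_
    rw [trace_att (Real.exp_pos _).le (Real.exp_le_one_iff.2 (by linarith)), htr]
  have hn' : (0 : ℝ) < n := Nat.cast_pos.2 hn
  have key : ∀ N', 0 < N' → N' < N → n * g (N' * Real.exp (-T)) ≤ nent (att (Real.exp (-T)) M) := by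
    intro N' hN' hlt
    have hS' : n * g N' < nent M := lt_of_lt_of_le
      (mul_lt_mul_of_pos_left (g_strictMono hN'.le hN.le hlt) hn') hS
    have hcont : Continuous fun r => nent (att (Real.exp (-r)) M) :=
      continuous_nent _ (continuous_att M) fun r => att_posSemidef _ hM.posSemidef
    have h0 : ∀ᶠ ε in 𝓝[>] (0 : ℝ), n * g (N' * Real.exp (-T)) ≤ nent (att (Real.exp (-(T + ε))) M) := by
      have he : ∀ᶠ ε in 𝓝[>] (0 : ℝ), n * g N' < nent (att (Real.exp (-ε)) M) :=
        nhdsWithin_le_nhds ((hcont.tendsto 0).eventually_const_lt (by simpa [att_one] using hS'))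
      filter_upwards [he, self_mem_nhdsWithin] with ε hε hε0
      have hε0' : (0 : ℝ) < ε := hε0
      obtain ⟨C, eC⟩ : ∃ C : ℝ → Matrix (box n K) (box n K) ℂ,
          C = fun r => att (Real.exp (-max (r + ε) (ε / 2))) M := ⟨_, rfl⟩
      have hpos : ∀ r, 0 ≤ max (r + ε) (ε / 2) := fun r => le_trans (by linarith) (le_max_right _ _)
      have hpd : ∀ r, (C r).PosDef := fun r => eC ▸ att_posDef (Real.exp_pos _) hM
      have htrC : ∀ r, (C r).trace = 1 := fun r => by
        rw [eC]; simp only
        rw [trace_att (Real.exp_pos _).le (Real.exp_le_one_iff.2 (by linarith [hpos r])), htr]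
      have hbC : ∀ r, IsBlock (C r) := fun r => eC ▸ isBlock_att _ hb
      have hCc : Continuous C := eC ▸ (continuous_att M).comp (by fun_prop)
      have hd : ∀ t, -(ε / 2) < t → ∀ i j, HasDerivAt (fun r => C r i j) (lind (C t) i j) t := by
        intro t ht i j
        have he : max (t + ε) (ε / 2) = t + ε := max_eq_left (by linarith)
        have h1 : HasDerivAt (fun r => att (Real.exp (-(r + ε))) M i j) (lind (C t) i j) t := by
          have := (hasDerivAt_att M (t := t + ε) (by linarith) i j).comp_add_const t ε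
          rw [eC]; simp only
          rw [he]
          exact this
        refine h1.congr_of_eventuallyEq ?_
        filter_upwards [Ioi_mem_nhds ht] with r hr
        rw [eC]; simp only
        rw [max_eq_left (by linarith [Set.mem_Ioi.1 hr])]
      have hsolT : ∀ t, -(ε / 2) < t → ∀ s ∈ Icc (0 : ℝ) 1, HasDerivAt (fun r => favg (C r) s) (favgT (C t) s) t := by
        intro t ht s hs
        refine (HasDerivAt.fun_sum fun j _ => hasDerivAt_gap (annih n K j) (hd t ht) fun i k => ?_).div_const _
        exact hasDerivAt_sol (s := fun _ => s) (Z' := 0) (hasDerivAt_const t s) (Eventually.of_forall fun _ => hs)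
          hpd (hd t ht) (fun a b => hasDerivAt_const t (annih n K j a b)) i k
      have hsolS : ∀ t, ∀ s ∈ Ioo (0 : ℝ) 1, HasDerivAt (favg (C t)) (favgS (C t) s) s := by
        intro t s hs
        have hc : ∀ i k, HasDerivAt (fun _ : ℝ => C t i k) ((0 : Matrix (box n K) (box n K) ℂ) i k) s :=
          fun i k => hasDerivAt_const s _
        refine ((HasDerivAt.fun_sum fun j _ => hasDerivAt_gap (annih n K j) hc fun i k =>
          hasDerivAt_sol (s := fun r => r) (Z' := 0) (hasDerivAt_id' s)
            (Filter.mem_of_superset (Icc_mem_nhds hs.1 hs.2) fun _ h => h) (fun _ => hpd t) hc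
            (fun a b => hasDerivAt_const s (annih n K j a b)) i k).div_const _).congr_deriv ?_
        simp [favgS, gapT]
      have hineq : ∀ t, ∀ s ∈ Ioo (0 : ℝ) 1,
          favg (C t) s ^ 2 - favg (C t) s ≤ favgT (C t) s ∧ s * favgS (C t) s ≤ favgT (C t) s := by
        intro t s hs
        have hsl := fun Z => sylv_sol (hpd t) hs.1.le hs.2.le Z
        obtain ⟨h1, h2⟩ := flow_ineq hQ (hpd t) (htrC t) (hbC t) hs.1 hs.2
          (X := fun j => sol s (C t) (annih n K j))
          (Xd := fun j => sol s (C t) (0 - sylv s (lind (C t)) (sol s (C t) (annih n K j))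
            - ((0 : ℝ) : ℂ) • (C t * sol s (C t) (annih n K j) - sol s (C t) (annih n K j) * C t)))
          (Xs := fun j => sol s (C t) (0 - sylv s 0 (sol s (C t) (annih n K j))
            - ((1 : ℝ) : ℂ) • (C t * sol s (C t) (annih n K j) - sol s (C t) (annih n K j) * C t)))
          (fun j => hsl _) (fun j => by rw [hsl]; simp [sylv])
          (fun j => by rw [hsl]; simp [sylv])
        simp only [favg, favgT, favgS]
        rw [Finset.sum_add_distrib] at h1
        constructor
        · rw [div_pow, sub_le_iff_le_add, ← add_div, div_le_div_iff₀ (by positivity) hn']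
          nlinarith [mul_le_mul_of_nonneg_right h1 hn'.le]
        · rw [mul_div_assoc']
          exact div_le_div_of_nonneg_right h2 hn'.le
      have h := curve_entropy_bound (a := ε / 2) (by linarith) hpd htrC hCc
        (M' := fun t => lind (C t)) hd
        (f := fun t s => favg (C t) s) (ft := fun t s => favgT (C t) s) (fs := fun t s => favgS (C t) s)
        (fun t _ U p hU hU' hp hdec => by
          rw [rate_eq_integral (hpd t) hp hU' hU hdec]
          simp only [favg, intervalIntegral.integral_div]
          rw [mul_div_cancel₀ _ hn'.ne'])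
        (continuousOn_favg hCc hpd).1 (continuousOn_favg hCc hpd).2 hsolT (fun t _ => hsolS t)
        (fun t _ s hs => (hineq t s hs).1) (fun t _ s hs => (hineq t s hs).2)
        hN' (by rw [eC]; simp only [zero_add, max_eq_left (by linarith : ε / 2 ≤ ε)]; exact hε.le) hT
      rw [eC] at h
      simpa [max_eq_left (by linarith : ε / 2 ≤ T + ε)] using h
    have hlim := ((hcont.comp (continuous_const.add continuous_id : Continuous fun ε : ℝ => T + ε)).tendsto (0 : ℝ)).mono_left
      (nhdsWithin_le_nhds (s := Ioi (0 : ℝ)))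
    simpa using ge_of_tendsto (f := fun ε => nent (att (Real.exp (-(T + ε))) M)) hlim h0
  have hlim : Tendsto (fun N' => (n : ℝ) * g (N' * Real.exp (-T))) (𝓝[<] N) (𝓝 (n * g (N * Real.exp (-T)))) :=
    ((continuous_const.mul (continuous_g.comp (continuous_id.mul continuous_const))).tendsto N).mono_left
      nhdsWithin_le_nhds
  exact le_of_tendsto hlim (by filter_upwards [Ioo_mem_nhdsLT hN] with x hx using key x hx.1 hx.2)

end Vale.Agent.P369.Block
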